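import Mathlib

/-!
Elementary Mertens-type bounds derived from Chebyshev's estimates.
-/

namespace Vale.Agent.Sieve

open Finset Real

theorem log_factorial_eq (t : ℕ) :
    log (t.factorial : ℝ) = ∑ p ∈ Nat.primesLE t, (t.factorial.factorization p : ℝ) * log p := by
  rw [Real.log_nat_eq_sum_factorization, Finsupp.sum, Nat.support_factorization]
  congr 1
  ext p
  simp only [Nat.mem_primeFactors, Nat.mem_primesLE]
  constructor
  · rintro ⟨hp, hd, _⟩
    exact ⟨(hp.dvd_factorial).1 hd, hp⟩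
  · rintro ⟨hle, hp⟩
    exact ⟨hp, (hp.dvd_factorial).2 hle, Nat.factorial_ne_zero t⟩

theorem div_le_factorization_factorial {p : ℕ} (hp : p.Prime) (t : ℕ) :
    t / p ≤ t.factorial.factorization p := by
  rw [Nat.factorization_factorial hp (b := Nat.log p t + 2) (by omega)]
  have h1 : 1 ∈ Ico 1 (Nat.log p t + 2) := by simp
  have := single_le_sum (f := fun i => t / p ^ i) (fun i _ => Nat.zero_le _) h1
  simpa using this

theorem sum_log_div_le {t : ℕ} (ht : 1 ≤ t) :
    ∑ p ∈ Nat.primesLE t, log p / p ≤ log t + log 4 := by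
  have ht' : (0 : ℝ) < t := by exact_mod_cast ht
  have h1 : log (t.factorial : ℝ) ≤ t * log t := by
    rw [← Real.log_pow]
    apply Real.log_le_log (by exact_mod_cast Nat.factorial_pos t)
    exact_mod_cast Nat.factorial_le_pow t
  have h2 : ∑ p ∈ Nat.primesLE t, ((t : ℝ) / p - 1) * log p ≤ log (t.factorial : ℝ) := by
    rw [log_factorial_eq]
    refine sum_le_sum fun p hp => ?_
    have hp' := Nat.prime_of_mem_primesLE hp
    apply mul_le_mul_of_nonneg_right _ (Real.log_natCast_nonneg p)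
    have h3 : ((t / p : ℕ) : ℝ) ≤ (t.factorial.factorization p : ℝ) := by
      exact_mod_cast div_le_factorization_factorial hp' t
    have h4 : (t : ℝ) / p < ((t / p : ℕ) : ℝ) + 1 := by
      rw [div_lt_iff₀ (by exact_mod_cast hp'.pos)]
      have := Nat.lt_div_mul_add (a := t) hp'.pos
      have h5 : t < (t / p + 1) * p := by nlinarith
      exact_mod_cast h5
    linarith
  have h3 : ∑ p ∈ Nat.primesLE t, log (p : ℝ) ≤ log 4 * t := by
    rw [← Chebyshev.theta_eq_sum_primesLE_log]
    exact Chebyshev.theta_le_log4_mul_x ht'.le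
  have h4 : ∑ p ∈ Nat.primesLE t, ((t : ℝ) / p - 1) * log p
      = t * ∑ p ∈ Nat.primesLE t, log p / p - ∑ p ∈ Nat.primesLE t, log (p : ℝ) := by
    rw [mul_sum, ← sum_sub_distrib]
    exact sum_congr rfl fun p _ => by ring
  have h5 : (t : ℝ) * ∑ p ∈ Nat.primesLE t, log p / p ≤ t * (log t + log 4) := by linarith
  exact le_of_mul_le_mul_left h5 ht'

theorem log_sub_one_le_sum {t : ℕ} (ht : 1 ≤ t) :
    log t - 1 ≤ 2 * ∑ p ∈ Nat.primesLE t, log p / p := by
  have ht' : (0 : ℝ) < t := by exact_mod_cast ht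
  have h1 : t * log t - t ≤ log (t.factorial : ℝ) := by
    have h := Real.pow_div_factorial_le_exp (x := (t : ℝ)) ht'.le t
    have hf : (0 : ℝ) < t.factorial := by exact_mod_cast Nat.factorial_pos t
    have h2 := Real.log_le_log (by positivity) h
    rw [Real.log_div (by positivity) hf.ne', Real.log_pow, Real.log_exp] at h2
    linarith
  have h2 : log (t.factorial : ℝ) ≤ t * (2 * ∑ p ∈ Nat.primesLE t, log p / p) := by
    rw [log_factorial_eq, mul_sum, mul_sum]
    refine sum_le_sum fun p hp => ?_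
    have hp' := Nat.prime_of_mem_primesLE hp
    have hp2 : (2 : ℝ) ≤ p := by exact_mod_cast hp'.two_le
    have h3 : (t.factorial.factorization p : ℝ) ≤ ((t / (p - 1) : ℕ) : ℝ) := by
      exact_mod_cast Nat.factorization_factorial_le_div_pred hp' t
    have h4 : ((t / (p - 1) : ℕ) : ℝ) ≤ (t : ℝ) / ((p : ℝ) - 1) := by
      have := Nat.cast_div_le (α := ℝ) (m := t) (n := p - 1)
      rwa [Nat.cast_sub hp'.one_le, Nat.cast_one] at this
    have h5 : (t : ℝ) / ((p : ℝ) - 1) ≤ t * (2 / p) := by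
      rw [div_le_iff₀ (by linarith), mul_assoc]
      have : (1 : ℝ) ≤ 2 / p * (p - 1) := by
        rw [div_mul_eq_mul_div, le_div_iff₀ (by linarith)]
        linarith
      nlinarith
    have h6 := Real.log_natCast_nonneg p
    calc (t.factorial.factorization p : ℝ) * log p ≤ t * (2 / p) * log p := by
          apply mul_le_mul_of_nonneg_right _ h6
          linarith
      _ = t * (2 * (log p / p)) := by ring
  have h5 : (t : ℝ) * (log t - 1) ≤ t * (2 * ∑ p ∈ Nat.primesLE t, log p / p) := by linarith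
  exact le_of_mul_le_mul_left h5 ht'

theorem log_four_eq : log (4 : ℝ) = 2 * log 2 := by
  rw [show (4 : ℝ) = 2 ^ 2 by norm_num, Real.log_pow]
  norm_num

/-- The primes in `(sqrt t, t]` have reciprocal sum at most `6`. -/
theorem block_le (t : ℕ) :
    ∑ p ∈ (Nat.primesLE t).filter (fun p => Nat.sqrt t < p), (1 / p : ℝ) ≤ 6 := by
  rcases Nat.lt_or_ge t 2 with ht | ht
  · have : Nat.primesLE t = ∅ := by
      ext p
      simp only [Nat.mem_primesLE, notMem_empty, iff_false, not_and]
      intro h hp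
      have := hp.two_le
      omega
    simp [this]
  have ht' : (2 : ℝ) ≤ t := by exact_mod_cast ht
  have hl2 : log 2 ≤ log (t : ℝ) := Real.log_le_log (by norm_num) ht'
  have hl0 : 0 < log (2 : ℝ) := Real.log_pos (by norm_num)
  have hlt : 0 < log (t : ℝ) := by linarith
  have h1 : ∑ p ∈ (Nat.primesLE t).filter (fun p => Nat.sqrt t < p), (1 / p : ℝ)
      ≤ ∑ p ∈ (Nat.primesLE t).filter (fun p => Nat.sqrt t < p), (2 / log t) * (log p / p) := by
    refine sum_le_sum fun p hp => ?_
    rw [mem_filter] at hp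
    have hp' := Nat.prime_of_mem_primesLE hp.1
    have hp0 : (0 : ℝ) < p := by exact_mod_cast hp'.pos
    have h2 : t ≤ p ^ 2 := by
      have := Nat.sqrt_lt'.1 hp.2
      omega
    have h3 : log (t : ℝ) ≤ 2 * log p := by
      have : log (t : ℝ) ≤ log ((p : ℝ) ^ 2) :=
        Real.log_le_log (by linarith) (by exact_mod_cast h2)
      rwa [Real.log_pow, Nat.cast_ofNat] at this
    have : (2 / log t) * (log p / p) = (2 * log p / log t) * (1 / p : ℝ) := by ring
    rw [this]
    have h4 : 1 ≤ 2 * log p / log t := by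
      rw [le_div_iff₀ hlt]
      linarith
    have : (0 : ℝ) ≤ 1 / p := by positivity
    nlinarith
  have h2 : ∑ p ∈ (Nat.primesLE t).filter (fun p => Nat.sqrt t < p), (2 / log t) * (log p / p)
      ≤ (2 / log t) * (log t + log 4) := by
    rw [← mul_sum]
    apply mul_le_mul_of_nonneg_left _ (by positivity)
    refine le_trans ?_ (sum_log_div_le (by omega))
    apply sum_le_sum_of_subset_of_nonneg (filter_subset _ _)
    intro p _ _
    have := Real.log_natCast_nonneg p
    positivity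
  have h3 : (2 / log t) * (log t + log 4) ≤ 6 := by
    rw [div_mul_eq_mul_div, div_le_iff₀ hlt, log_four_eq]
    linarith
  linarith

theorem range_le (y : ℕ) (n : ℕ) : ∀ t : ℕ, t < (y + 1) ^ (2 ^ n) →
    ∑ p ∈ (Nat.primesLE t).filter (fun p => y < p), (1 / p : ℝ) ≤ 6 * n := by
  induction n with
  | zero =>
    intro t ht
    have : (Nat.primesLE t).filter (fun p => y < p) = ∅ := by
      rw [filter_eq_empty_iff]
      intro p hp
      have := Nat.le_of_mem_primesLE hp
      simp at ht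
      omega
    simp [this]
  | succ n ih =>
    intro t ht
    have h1 : Nat.sqrt t < (y + 1) ^ (2 ^ n) := by
      rw [Nat.sqrt_lt', ← pow_mul, ← pow_succ]
      exact ht
    have h2 := ih _ h1
    have h3 := block_le t
    have h4 : (Nat.primesLE t).filter (fun p => y < p) ⊆
        (Nat.primesLE (Nat.sqrt t)).filter (fun p => y < p) ∪
          (Nat.primesLE t).filter (fun p => Nat.sqrt t < p) := by
      intro p hp
      rw [mem_filter] at hp
      rw [mem_union, mem_filter, mem_filter, Nat.mem_primesLE]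
      rcases Nat.lt_or_ge (Nat.sqrt t) p with h | h
      · exact Or.inr ⟨hp.1, h⟩
      · exact Or.inl ⟨⟨h, Nat.prime_of_mem_primesLE hp.1⟩, hp.2⟩
    calc _ ≤ ∑ p ∈ (Nat.primesLE (Nat.sqrt t)).filter (fun p => y < p) ∪
          (Nat.primesLE t).filter (fun p => Nat.sqrt t < p), (1 / p : ℝ) :=
          sum_le_sum_of_subset_of_nonneg h4 fun p _ _ => by positivity
      _ ≤ _ + _ := by
          rw [← sum_union_inter]
          have : 0 ≤ ∑ p ∈ (Nat.primesLE (Nat.sqrt t)).filter (fun p => y < p) ∩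
            (Nat.primesLE t).filter (fun p => Nat.sqrt t < p), (1 / p : ℝ) :=
            sum_nonneg fun p _ => by positivity
          exact le_add_of_nonneg_right this
      _ ≤ 6 * n + 6 := add_le_add h2 h3
      _ = 6 * ((n + 1 : ℕ) : ℝ) := by push_cast; ring

theorem exp_neg_two_mul_le {q : ℝ} (h0 : 0 ≤ q) (h1 : q ≤ 1 / 2) : exp (-(2 * q)) ≤ 1 - q := by
  rw [Real.exp_neg, inv_le_comm₀ (Real.exp_pos _) (by linarith)]
  have h2 := Real.add_one_le_exp (2 * q)
  have h3 : (1 - q)⁻¹ ≤ 2 * q + 1 := by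
    rw [inv_le_iff_one_le_mul₀ (by linarith)]
    nlinarith
  linarith

theorem exp_le_prod_one_sub {ι : Type*} (s : Finset ι) (q : ι → ℝ) (h0 : ∀ i ∈ s, 0 ≤ q i)
    (h1 : ∀ i ∈ s, q i ≤ 1 / 2) : exp (-(2 * ∑ i ∈ s, q i)) ≤ ∏ i ∈ s, (1 - q i) := by
  rw [mul_sum, ← sum_neg_distrib, Real.exp_sum]
  exact prod_le_prod (fun i _ => (Real.exp_pos _).le) fun i hi => exp_neg_two_mul_le (h0 i hi) (h1 i hi)

/-- Mertens' product is at most `1 / log (t + 1)`. -/
theorem log_le_prod_inv (t : ℕ) :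
    log ((t : ℝ) + 1) ≤ ∏ p ∈ Nat.primesLE t, (1 - 1 / (p : ℝ))⁻¹ := by
  let f : ℕ →* ℝ :=
    { toFun := fun n => (n : ℝ)⁻¹
      map_one' := by simp
      map_mul' := fun a b => by push_cast; rw [mul_inv] }
  have hf : ∀ {p : ℕ}, p.Prime → ‖f p‖ < 1 := by
    intro p hp
    have : (1 : ℝ) < p := by exact_mod_cast hp.one_lt
    change ‖(p : ℝ)⁻¹‖ < 1
    rw [Real.norm_eq_abs, abs_of_pos (by positivity)]
    exact inv_lt_one_of_one_lt₀ this
  have h := (EulerProduct.summable_and_hasSum_smoothNumbers_prod_primesBelow_geometric hf (t + 1)).2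
  have h1 : log ((t : ℝ) + 1) ≤ ∑ i ∈ range t, ((i : ℝ) + 1)⁻¹ := by
    have := log_add_one_le_harmonic t
    rw [harmonic] at this
    push_cast at this
    exact this
  let g : Fin t → (t + 1).smoothNumbers := fun i => ⟨i + 1, by
    rw [Nat.mem_smoothNumbers']
    intro p _ hd
    have := Nat.le_of_dvd (by omega) hd
    have := i.2
    omega⟩
  have hg : Function.Injective g := by
    intro i j hij
    have := congrArg Subtype.val hij
    simp only [g] at this
    ext
    omega
  have h2 : ∑ i ∈ range t, ((i : ℝ) + 1)⁻¹ = ∑ m ∈ univ.map ⟨g, hg⟩, f m := by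
    rw [sum_map, ← Fin.sum_univ_eq_sum_range (fun i => ((i : ℝ) + 1)⁻¹)]
    refine sum_congr rfl fun i _ => ?_
    change _ = (((i : ℕ) + 1 : ℕ) : ℝ)⁻¹
    push_cast
    rfl
  have h3 := sum_le_hasSum (univ.map ⟨g, hg⟩) (fun m _ => by
    change (0 : ℝ) ≤ ((m : ℕ) : ℝ)⁻¹
    positivity) h
  have h4 : ∏ p ∈ (t + 1).primesBelow, (1 - f p)⁻¹ = ∏ p ∈ Nat.primesLE t, (1 - 1 / (p : ℝ))⁻¹ := by
    refine prod_congr rfl fun p _ => ?_
    rw [one_div]
    rfl
  linarith

theorem prod_one_sub_le {t : ℕ} (ht : 1 ≤ t) :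
    ∏ p ∈ Nat.primesLE t, (1 - 1 / (p : ℝ)) ≤ 1 / log ((t : ℝ) + 1) := by
  have h := log_le_prod_inv t
  have ht' : (1 : ℝ) ≤ t := by exact_mod_cast ht
  have hl : 0 < log ((t : ℝ) + 1) := Real.log_pos (by linarith)
  rw [prod_inv_distrib] at h
  have hp : 0 < ∏ p ∈ Nat.primesLE t, (1 - 1 / (p : ℝ)) := by
    refine prod_pos fun p hp => ?_
    have : (2 : ℝ) ≤ p := by exact_mod_cast Nat.two_le_of_mem_primesLE hp
    have : 1 / (p : ℝ) ≤ 1 / 2 := one_div_le_one_div_of_le (by norm_num) this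
    linarith
  rw [one_div, le_inv_comm₀ hp hl]
  exact h

theorem two_pow_le_primeCounting {n : ℕ} (hn : 3 ≤ n) :
    2 ^ n ≤ 2 * n * Nat.primeCounting (2 ^ n) := by
  have h := Chebyshev.pi_ge (2 ^ n)
  have hl0 : 0 < log (2 : ℝ) := Real.log_pos (by norm_num)
  have hn' : (3 : ℝ) ≤ n := by exact_mod_cast hn
  push_cast at h
  rw [Real.log_pow, div_le_iff₀ (by positivity)] at h
  have h1 : log ((2 : ℝ) ^ n + 1) ≤ (n + 1) * log 2 := by
    have : log ((2 : ℝ) ^ n + 1) ≤ log ((2 : ℝ) ^ (n + 1)) := by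
      apply Real.log_le_log (by positivity)
      have : (1 : ℝ) ≤ 2 ^ n := one_le_pow₀ (by norm_num)
      rw [pow_succ]
      linarith
    rw [Real.log_pow] at this
    push_cast at this
    exact this
  have h2 : 2 * n + 2 ≤ 2 ^ n := by
    clear h h1 hn'
    induction n, hn using Nat.le_induction with
    | base => norm_num
    | succ k _ ih => rw [pow_succ]; omega
  have h2' : 2 * (n : ℝ) + 2 ≤ 2 ^ n := by exact_mod_cast h2
  have h3 : ((2 : ℝ) ^ n - (n + 1)) * log 2 ≤ (Nat.primeCounting (2 ^ n) * n) * log 2 := by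
    nlinarith
  have h4 := le_of_mul_le_mul_right h3 hl0
  have h5 : (2 : ℝ) ^ n ≤ 2 * n * Nat.primeCounting (2 ^ n) := by linarith
  exact_mod_cast h5

theorem two_pow_card_primeFactors_le {n : ℕ} (hn : n ≠ 0) : 2 ^ n.primeFactors.card ≤ n := by
  calc 2 ^ n.primeFactors.card ≤ ∏ p ∈ n.primeFactors, p := by
        apply Finset.pow_card_le_prod
        intro p hp
        exact (Nat.prime_of_mem_primeFactors hp).two_le
    _ ≤ n := Nat.le_of_dvd (Nat.pos_of_ne_zero hn) (Nat.prod_primeFactors_dvd n)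

theorem card_primeFactors_le {n k : ℕ} (hn : n ≠ 0) (h : n ≤ 2 ^ k) : n.primeFactors.card ≤ k := by
  have := (two_pow_card_primeFactors_le hn).trans h
  exact (Nat.pow_le_pow_iff_right (by norm_num)).1 this

end Vale.Agent.Sieve
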