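import Vale.Agent.Lib.Sieve.FinProb
import Vale.Agent.Lib.Sieve.Mertens

/-!
A Brun-Hooley type sieve weight in the independent model.
-/

namespace Vale.Agent.Sieve

open Finset Real

variable {ι : Type*} [Fintype ι] [DecidableEq ι]

theorem inv_prime_nonneg (p : ℕ) : (0 : ℝ) ≤ 1 / (p : ℝ) := by positivity

theorem inv_prime_le_half {p : ℕ} (hp : p.Prime) : 1 / (p : ℝ) ≤ 1 / 2 :=
  one_div_le_one_div_of_le (by norm_num) (by exact_mod_cast hp.two_le)

theorem inv_prime_le_one {p : ℕ} (hp : p.Prime) : 1 / (p : ℝ) ≤ 1 :=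
  (inv_prime_le_half hp).trans (by norm_num)

/-- Independent events of probability `1 / pr i`. -/
noncomputable def primeModel (pr : ι → ℕ) (hp : ∀ i, (pr i).Prime) : FP (ι → Bool) :=
  FP.pi fun i => FP.bern (1 / (pr i : ℝ)) (inv_prime_nonneg _) (inv_prime_le_one (hp i))

/-- Number of true coordinates in `S`. -/
def om (S : Finset ι) (x : ι → Bool) : ℕ := (S.filter fun i => x i = true).card

omit [Fintype ι] [DecidableEq ι] in
theorem om_cast (S : Finset ι) (x : ι → Bool) :
    (om S x : ℝ) = ∑ i ∈ S, if x i then (1 : ℝ) else 0 := by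
  simp [om]

omit [Fintype ι] [DecidableEq ι] in
theorem pow_om (c : ℝ) (S : Finset ι) (x : ι → Bool) :
    c ^ om S x = ∏ i ∈ S, if x i then c else 1 := by
  rw [prod_ite, prod_const, prod_const_one, mul_one, om]

omit [Fintype ι] [DecidableEq ι] in
theorem om_congr (S : Finset ι) {x y : ι → Bool} (h : ∀ i ∈ S, x i = y i) : om S x = om S y := by
  unfold om
  congr 1
  exact filter_congr fun i hi => by rw [h i hi]

omit [Fintype ι] [DecidableEq ι] in
theorem om_eq_zero (S : Finset ι) {x : ι → Bool} (h : ∀ i ∈ S, x i = false) : om S x = 0 := by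
  unfold om
  rw [card_eq_zero, filter_eq_empty_iff]
  intro i hi
  simp [h i hi]

omit [Fintype ι] [DecidableEq ι] in
theorem om_pos (S : Finset ι) {x : ι → Bool} {i : ι} (hi : i ∈ S) (h : x i = true) :
    1 ≤ om S x := by
  unfold om
  exact card_pos.2 ⟨i, mem_filter.2 ⟨hi, h⟩⟩

omit [Fintype ι] in
theorem om_union {S T : Finset ι} (h : Disjoint S T) (x : ι → Bool) :
    om (S ∪ T) x = om S x + om T x := by
  unfold om
  rw [filter_union, card_union_of_disjoint (disjoint_filter_filter h)]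

omit [Fintype ι] [DecidableEq ι] in
theorem PN_om (S : Finset ι) :
    PN (atoms fun i (x : ι → Bool) => x i) (fun x => (om S x : ℝ)) S.card := by
  have := PN.sum (A := atoms fun i (x : ι → Bool) => x i) S
    (f := fun i x => if x i then (1 : ℝ) else 0) (B := fun _ => 1)
    (fun i _ => PN.atom (coord_mem_atoms (fun i (x : ι → Bool) => x i) i))
  simp only [sum_const, nsmul_eq_mul, mul_one] at this
  exact this.congr fun x => om_cast S x

theorem E_pow_om (pr : ι → ℕ) (hp : ∀ i, (pr i).Prime) (c : ℝ) (S : Finset ι) :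
    (primeModel pr hp).E (fun x => c ^ om S x) = ∏ i ∈ S, (1 + (c - 1) * (1 / (pr i : ℝ))) := by
  rw [FP.E_congr _ (pow_om c S), primeModel,
    FP.E_pi_prod_on _ S (fun _ b => if b = true then c else 1)]
  refine prod_congr rfl fun i _ => ?_
  rw [FP.E_bern]
  simp
  ring

theorem E_pow_om_le (pr : ι → ℕ) (hp : ∀ i, (pr i).Prime) {c : ℝ} (hc : 1 ≤ c) (S : Finset ι) :
    (primeModel pr hp).E (fun x => c ^ om S x) ≤ exp ((c - 1) * ∑ i ∈ S, 1 / (pr i : ℝ)) := by
  rw [E_pow_om, mul_sum, Real.exp_sum]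
  refine prod_le_prod (fun i _ => ?_) fun i _ => ?_
  · have := inv_prime_nonneg (pr i)
    have : 0 ≤ (c - 1) * (1 / (pr i : ℝ)) := mul_nonneg (by linarith) this
    linarith
  · rw [add_comm]
    exact Real.add_one_le_exp _

theorem E_zero_pow_om (pr : ι → ℕ) (hp : ∀ i, (pr i).Prime) (S : Finset ι) :
    (primeModel pr hp).E (fun x => (0 : ℝ) ^ om S x) = ∏ i ∈ S, (1 - 1 / (pr i : ℝ)) := by
  rw [E_pow_om]
  exact prod_congr rfl fun i _ => by ring

/-- The polynomial vanishing at `1, ..., r` and equal to `1` at `0`. -/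
noncomputable def gpol (r : ℕ) (y : ℝ) : ℝ := ∏ i ∈ range r, (1 - y / ((i : ℝ) + 1))

theorem gpol_zero (r : ℕ) : gpol r 0 = 1 := by simp [gpol]

theorem gpol_eq_zero {r n : ℕ} (h1 : 1 ≤ n) (h2 : n ≤ r) : gpol r n = 0 := by
  unfold gpol
  apply prod_eq_zero (i := n - 1) (mem_range.2 (by omega))
  rw [Nat.cast_sub h1]
  have : (n : ℝ) ≠ 0 := by positivity
  simp [this]

theorem abs_gpol_le {r n : ℕ} (h : r < n) : |gpol r n| ≤ exp n := by
  unfold gpol
  rw [abs_prod]
  have h1 : ∏ i ∈ range r, |1 - (n : ℝ) / ((i : ℝ) + 1)| ≤ ∏ i ∈ range r, (n : ℝ) / ((i : ℝ) + 1) := by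
    refine prod_le_prod (fun i _ => abs_nonneg _) fun i hi => ?_
    have hi' : (i : ℝ) + 1 ≤ n := by
      have := mem_range.1 hi
      exact_mod_cast (by omega : i + 1 ≤ n)
    have : 1 ≤ (n : ℝ) / ((i : ℝ) + 1) := by
      rw [le_div_iff₀ (by positivity)]
      linarith
    rw [abs_le]
    constructor <;> linarith
  have h2 : ∏ i ∈ range r, (n : ℝ) / ((i : ℝ) + 1) = (n : ℝ) ^ r / r.factorial := by
    rw [prod_div_distrib, prod_const, card_range, ← Finset.prod_range_add_one_eq_factorial]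
    push_cast
    rfl
  rw [h2] at h1
  exact h1.trans (Real.pow_div_factorial_le_exp _ (by positivity) r)

theorem gpol_sq_pow_le (r n j : ℕ) (hj : 1 ≤ j) :
    (gpol r n ^ 2) ^ j ≤ (0 : ℝ) ^ n + (4 * exp (2 * j)) ^ n / 4 ^ r := by
  have hpos : 0 ≤ (4 * exp (2 * j)) ^ n / 4 ^ r := by positivity
  rcases Nat.eq_zero_or_pos n with rfl | hn
  · simp only [Nat.cast_zero, gpol_zero, one_pow, pow_zero]
    have : (0 : ℝ) ≤ 1 / 4 ^ r := by positivity
    linarith
  rw [zero_pow hn.ne', zero_add]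
  rcases Nat.lt_or_ge r n with h | h
  · have h1 : gpol r n ^ 2 ≤ exp n ^ 2 := by
      rw [← sq_abs]
      exact pow_le_pow_left₀ (abs_nonneg _) (abs_gpol_le h) 2
    have h2 : (gpol r n ^ 2) ^ j ≤ (exp n ^ 2) ^ j := pow_le_pow_left₀ (sq_nonneg _) h1 j
    have h3 : (exp n ^ 2) ^ j = exp (2 * j) ^ n := by
      rw [← pow_mul, ← Real.exp_nat_mul, ← Real.exp_nat_mul]
      congr 1
      push_cast
      ring
    have h4 : (1 : ℝ) ≤ 4 ^ n / 4 ^ r := by
      rw [le_div_iff₀ (by positivity), one_mul]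
      exact pow_le_pow_right₀ (by norm_num) h.le
    rw [mul_pow, mul_comm, mul_div_assoc]
    have : 0 ≤ exp (2 * j) ^ n := by positivity
    nlinarith
  · rw [gpol_eq_zero hn h, zero_pow two_ne_zero, zero_pow (by omega)]
    exact hpos

theorem gpol_sq_mul_le (r n : ℕ) :
    gpol r n ^ 2 * n ≤ (4 * exp (2 * (2 : ℕ))) ^ n / 4 ^ r := by
  have hpos : 0 ≤ (4 * exp (2 * (2 : ℕ))) ^ n / 4 ^ r := by positivity
  rcases Nat.eq_zero_or_pos n with rfl | hn
  · simp
  rcases Nat.lt_or_ge r n with h | h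
  · have h1 : gpol r n ^ 2 ≤ exp n ^ 2 := by
      rw [← sq_abs]
      exact pow_le_pow_left₀ (abs_nonneg _) (abs_gpol_le h) 2
    have h2 : (n : ℝ) ≤ exp n ^ 2 := by
      have := Real.add_one_le_exp (n : ℝ)
      have h0 : (0 : ℝ) ≤ n := by positivity
      nlinarith
    have h3 : exp n ^ 2 * exp n ^ 2 = exp (2 * (2 : ℕ)) ^ n := by
      rw [← pow_add, ← Real.exp_nat_mul, ← Real.exp_nat_mul]
      congr 1
      push_cast
      ring
    have h4 : (1 : ℝ) ≤ 4 ^ n / 4 ^ r := by
      rw [le_div_iff₀ (by positivity), one_mul]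
      exact pow_le_pow_right₀ (by norm_num) h.le
    have h5 : gpol r n ^ 2 * n ≤ exp n ^ 2 * exp n ^ 2 :=
      mul_le_mul h1 h2 (by positivity) (by positivity)
    rw [mul_pow, mul_comm ((4 : ℝ) ^ n), mul_div_assoc]
    have : 0 ≤ exp (2 * (2 : ℕ)) ^ n := by positivity
    rw [h3] at h5
    exact h5.trans (le_mul_of_one_le_right this h4)
  · rw [gpol_eq_zero hn h, zero_pow two_ne_zero, zero_mul]
    exact hpos

theorem zero_pow_le_gpol_sq (r n : ℕ) : (0 : ℝ) ^ n ≤ gpol r n ^ 2 := by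
  rcases Nat.eq_zero_or_pos n with rfl | hn
  · simp [gpol_zero]
  · rw [zero_pow hn.ne']
    positivity

/-- The constant in the moment bounds. -/
noncomputable def KK (j : ℕ) : ℝ := exp ((4 * exp (2 * j) + 1) * 6)

theorem KK_pos (j : ℕ) : 0 < KK j := Real.exp_pos _

theorem tail_le (pr : ι → ℕ) (hp : ∀ i, (pr i).Prime) (S : Finset ι)
    (hS : ∑ i ∈ S, 1 / (pr i : ℝ) ≤ 6) (j r : ℕ) :
    (primeModel pr hp).E (fun x => (4 * exp (2 * j)) ^ om S x / 4 ^ r)
      ≤ (∏ i ∈ S, (1 - 1 / (pr i : ℝ))) * (KK j / 4 ^ r) := by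
  have he : 1 ≤ exp (2 * (j : ℝ)) := Real.one_le_exp (by positivity)
  have h1 := E_pow_om_le pr hp (c := 4 * exp (2 * j)) (by linarith) S
  have h2 := exp_le_prod_one_sub S (fun i => 1 / (pr i : ℝ)) (fun i _ => inv_prime_nonneg _)
    (fun i _ => inv_prime_le_half (hp i))
  have h0 : 0 ≤ ∑ i ∈ S, 1 / (pr i : ℝ) := sum_nonneg fun i _ => inv_prime_nonneg _
  have h3 : exp ((4 * exp (2 * j) - 1) * ∑ i ∈ S, 1 / (pr i : ℝ))
      ≤ exp (-(2 * ∑ i ∈ S, 1 / (pr i : ℝ))) * KK j := by
    rw [KK, ← Real.exp_add]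
    apply Real.exp_le_exp.2
    nlinarith
  have h4 : (primeModel pr hp).E (fun x => (4 * exp (2 * j)) ^ om S x / 4 ^ r)
      = (primeModel pr hp).E (fun x => (4 * exp (2 * j)) ^ om S x) / 4 ^ r := by
    simp only [div_eq_mul_inv]
    exact FP.E_mul_const _ _ _
  rw [h4, ← mul_div_assoc]
  apply div_le_div_of_nonneg_right _ (by positivity)
  exact h1.trans (h3.trans (mul_le_mul_of_nonneg_right h2 (KK_pos j).le))

omit [Fintype ι] [DecidableEq ι] in
theorem prod_one_sub_nonneg (pr : ι → ℕ) (hp : ∀ i, (pr i).Prime) (S : Finset ι) :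
    0 ≤ ∏ i ∈ S, (1 - 1 / (pr i : ℝ)) :=
  prod_nonneg fun i _ => by have := inv_prime_le_one (hp i); linarith

theorem block_moment (pr : ι → ℕ) (hp : ∀ i, (pr i).Prime) (S : Finset ι)
    (hS : ∑ i ∈ S, 1 / (pr i : ℝ) ≤ 6) (j r : ℕ) (hj : 1 ≤ j) :
    (primeModel pr hp).E (fun x => (gpol r (om S x) ^ 2) ^ j)
      ≤ (∏ i ∈ S, (1 - 1 / (pr i : ℝ))) * exp (KK j / 4 ^ r) := by
  have h1 := (primeModel pr hp).E_mono (fun x => gpol_sq_pow_le r (om S x) j hj)
  rw [FP.E_add, E_zero_pow_om] at h1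
  have h2 := tail_le pr hp S hS j r
  have h3 := Real.add_one_le_exp (KK j / 4 ^ r)
  have h4 := prod_one_sub_nonneg pr hp S
  nlinarith

theorem block_lower (pr : ι → ℕ) (hp : ∀ i, (pr i).Prime) (S : Finset ι) (r : ℕ) :
    ∏ i ∈ S, (1 - 1 / (pr i : ℝ)) ≤ (primeModel pr hp).E (fun x => gpol r (om S x) ^ 2) := by
  rw [← E_zero_pow_om pr hp]
  exact FP.E_mono _ fun x => zero_pow_le_gpol_sq r _

theorem block_om (pr : ι → ℕ) (hp : ∀ i, (pr i).Prime) (S : Finset ι)
    (hS : ∑ i ∈ S, 1 / (pr i : ℝ) ≤ 6) (r : ℕ) :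
    (primeModel pr hp).E (fun x => gpol r (om S x) ^ 2 * om S x)
      ≤ KK 2 / 4 ^ r * (primeModel pr hp).E (fun x => gpol r (om S x) ^ 2) := by
  have h1 := (primeModel pr hp).E_mono (fun x => gpol_sq_mul_le r (om S x))
  have h2 := tail_le pr hp S hS 2 r
  have h3 := block_lower pr hp S r
  have h4 : 0 ≤ KK 2 / 4 ^ r := div_nonneg (KK_pos 2).le (by positivity)
  nlinarith

omit [Fintype ι] [DecidableEq ι] in
theorem PN_gpol (S : Finset ι) (r : ℕ) :
    PN (atoms fun i (x : ι → Bool) => x i) (fun x => gpol r (om S x) ^ 2)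
      ((1 + (S.card : ℝ)) ^ (2 * r)) := by
  have h1 : PN (atoms fun i (x : ι → Bool) => x i) (fun x => gpol r (om S x))
      ((1 + (S.card : ℝ)) ^ r) := by
    have := PN.prod (mul_mem_atoms fun i (x : ι → Bool) => x i) (one_mem_atoms _) (range r)
      (f := fun i x => 1 - (om S x : ℝ) / ((i : ℝ) + 1)) (B := fun _ => 1 + (S.card : ℝ))
      (fun i _ => by positivity) (fun i _ => by
        have h := (PN.atom (one_mem_atoms fun i (x : ι → Bool) => x i)).sub
          ((PN_om S).const_mul (1 / ((i : ℝ) + 1)))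
        refine (h.mono ?_).congr fun x => by ring
        have h0 : (0 : ℝ) ≤ i := by positivity
        have h2 : |1 / ((i : ℝ) + 1)| ≤ 1 := by
          rw [abs_of_pos (by positivity), div_le_one (by positivity)]
          linarith
        have h3 : (0 : ℝ) ≤ S.card := by positivity
        nlinarith)
    simpa [gpol] using this
  have h2 := PN.mul (mul_mem_atoms fun i (x : ι → Bool) => x i) (by positivity) h1 h1
  rw [← pow_add, ← two_mul] at h2
  exact h2.congr fun x => sq _

/-- The indices whose prime is at most `t`. -/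
def upTo (pr : ι → ℕ) (t : ℕ) : Finset ι := univ.filter fun i => pr i ≤ t

/-- The indices whose prime lies in `(s, t]`. -/
def between (pr : ι → ℕ) (s t : ℕ) : Finset ι := univ.filter fun i => s < pr i ∧ pr i ≤ t

omit [DecidableEq ι] in
@[simp] theorem mem_upTo {pr : ι → ℕ} {t : ℕ} {i : ι} : i ∈ upTo pr t ↔ pr i ≤ t := by
  simp [upTo]

omit [DecidableEq ι] in
@[simp] theorem mem_between {pr : ι → ℕ} {s t : ℕ} {i : ι} :
    i ∈ between pr s t ↔ s < pr i ∧ pr i ≤ t := by
  simp [between]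

theorem upTo_eq_union (pr : ι → ℕ) {s t : ℕ} (h : s ≤ t) :
    upTo pr t = between pr s t ∪ upTo pr s := by
  ext i
  simp only [mem_upTo, mem_union, mem_between]
  omega

omit [DecidableEq ι] in
theorem disjoint_between_upTo (pr : ι → ℕ) (s t : ℕ) : Disjoint (between pr s t) (upTo pr s) := by
  rw [disjoint_left]
  intro i h1 h2
  simp only [mem_upTo, mem_between] at h1 h2
  omega

omit [DecidableEq ι] in
theorem card_upTo_le (pr : ι → ℕ) (hp : ∀ i, (pr i).Prime) (hinj : Function.Injective pr) (t : ℕ) :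
    (upTo pr t).card ≤ t - 1 := by
  have : (upTo pr t).card ≤ (Icc 2 t).card := by
    apply card_le_card_of_injOn pr
    · intro i hi
      have := (hp i).two_le
      simp only [coe_Icc, Set.mem_Icc]
      exact ⟨this, mem_upTo.1 hi⟩
    · exact hinj.injOn
  simpa using this

omit [DecidableEq ι] in
theorem sum_between_le (pr : ι → ℕ) (hp : ∀ i, (pr i).Prime) (hinj : Function.Injective pr)
    (s t : ℕ) : ∑ i ∈ between pr s t, 1 / (pr i : ℝ)
      ≤ ∑ p ∈ (Nat.primesLE t).filter (fun p => s < p), (1 / p : ℝ) := by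
  classical
  rw [← sum_image (s := between pr s t) (g := pr) (f := fun p : ℕ => (1 / p : ℝ)) hinj.injOn]
  apply sum_le_sum_of_subset_of_nonneg
  · intro p hp'
    obtain ⟨i, hi, rfl⟩ := mem_image.1 hp'
    rw [mem_between] at hi
    exact mem_filter.2 ⟨Nat.mem_primesLE.2 ⟨hi.2, hp i⟩, hi.1⟩
  · intro p _ _
    positivity

theorem exists_BH (pr : ι → ℕ) (hp : ∀ i, (pr i).Prime) (hinj : Function.Injective pr) (t : ℕ) :
    ∀ r : ℕ, 1 ≤ t → ∃ β : (ι → Bool) → ℝ, (∀ x, 0 ≤ β x) ∧
      (∀ x y, (∀ i, pr i ≤ t → x i = y i) → β x = β y) ∧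
      (∀ x, (∀ i, pr i ≤ t → x i = false) → β x = 1) ∧
      PN (atoms fun i (x : ι → Bool) => x i) β ((t : ℝ) ^ (4 * r + 4)) ∧
      (∀ j, 1 ≤ j → (primeModel pr hp).E (fun x => β x ^ j)
        ≤ (∏ i ∈ upTo pr t, (1 - 1 / (pr i : ℝ))) * exp (2 * KK j / 4 ^ r)) ∧
      (primeModel pr hp).E (fun x => β x * om (upTo pr t) x)
        ≤ 2 * KK 2 / 4 ^ r * (primeModel pr hp).E β := by
  induction t using Nat.strong_induction_on with
  | _ t ih =>
  intro r ht
  rcases Nat.lt_or_ge t 2 with ht2 | ht2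
  · have he : upTo pr t = ∅ := by
      ext i
      have := (hp i).two_le
      simp only [mem_upTo, notMem_empty, iff_false]
      omega
    refine ⟨fun _ => 1, fun _ => zero_le_one, fun _ _ _ => rfl, fun _ _ => rfl, ?_, ?_, ?_⟩
    · exact (PN.atom (one_mem_atoms _)).mono (one_le_pow₀ (by exact_mod_cast ht))
    · intro j _
      simp only [one_pow, FP.E_const, he, prod_empty, one_mul]
      exact Real.one_le_exp (div_nonneg (by have := KK_pos j; linarith) (by positivity))
    · simp only [he, om, filter_empty, card_empty, Nat.cast_zero, mul_zero, FP.E_const, mul_one]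
      exact div_nonneg (by have := KK_pos 2; linarith) (by positivity)
  set s := Nat.sqrt t with hs
  have hst : s < t := Nat.sqrt_lt_self (by omega)
  have hs1 : 1 ≤ s := by
    rw [hs, Nat.le_sqrt]
    omega
  obtain ⟨β, b0, bdep, bone, bPN, bmom, bom⟩ := ih s hst (r + 1) hs1
  set S := between pr s t with hS
  have hS6 : ∑ i ∈ S, 1 / (pr i : ℝ) ≤ 6 := (sum_between_le pr hp hinj s t).trans (block_le t)
  have hdisj := disjoint_between_upTo pr s t
  have hun := upTo_eq_union pr hst.le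
  have indep : ∀ (f : ℕ → ℝ) (g : (ι → Bool) → ℝ),
      (∀ x y, (∀ i, pr i ≤ s → x i = y i) → g x = g y) →
      (primeModel pr hp).E (fun x => f (om S x) * g x)
        = (primeModel pr hp).E (fun x => f (om S x)) * (primeModel pr hp).E g := by
    intro f g hg
    refine FP.E_pi_indep _ S (fun x => f (om S x)) g (fun x y h => ?_) (fun x y h => ?_)
    · simp only [om_congr S h]
    · refine hg x y fun i hi => h i fun hi' => ?_
      rw [hS, mem_between] at hi'
      omega
  refine ⟨fun x => gpol r (om S x) ^ 2 * β x, fun x => mul_nonneg (sq_nonneg _) (b0 x), ?_, ?_, ?_,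
    ?_, ?_⟩
  · intro x y h
    have e1 : om S x = om S y := om_congr S fun i hi => h i (mem_between.1 hi).2
    have e2 : β x = β y := bdep x y fun i hi => h i (by omega)
    simp only [e1, e2]
  · intro x h
    have e1 : om S x = 0 := om_eq_zero S fun i hi => h i (mem_between.1 hi).2
    have e2 : β x = 1 := bone x fun i hi => h i (by omega)
    simp only [e1, e2, Nat.cast_zero, gpol_zero, one_pow, mul_one]
  · have h1 := PN.mul (mul_mem_atoms fun i (x : ι → Bool) => x i) (by positivity) (PN_gpol S r) bPN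
    refine h1.mono ?_
    have h2 : 1 + (S.card : ℝ) ≤ t := by
      have h3 : S.card ≤ (upTo pr t).card := card_le_card (by rw [hun]; exact subset_union_left)
      have h4 := card_upTo_le pr hp hinj t
      exact_mod_cast (by omega : 1 + S.card ≤ t)
    have h3 : (s : ℝ) ^ 2 ≤ t := by exact_mod_cast Nat.sqrt_le' t
    calc (1 + (S.card : ℝ)) ^ (2 * r) * (s : ℝ) ^ (4 * (r + 1) + 4)
        = (1 + (S.card : ℝ)) ^ (2 * r) * ((s : ℝ) ^ 2) ^ (2 * r + 4) := by
          rw [← pow_mul]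
          congr 2
          ring
      _ ≤ (t : ℝ) ^ (2 * r) * (t : ℝ) ^ (2 * r + 4) := by gcongr
      _ = (t : ℝ) ^ (4 * r + 4) := by
          rw [← pow_add]
          congr 1
          ring
  · intro j hj
    have h1 := indep (fun n => (gpol r n ^ 2) ^ j) (fun x => β x ^ j)
      (fun x y h => by simp only [bdep x y h])
    simp only [mul_pow]
    rw [h1, hun, prod_union hdisj]
    have h2 := block_moment pr hp S hS6 j r hj
    have h3 := bmom j hj
    have h4 : exp (KK j / 4 ^ r) * exp (2 * KK j / 4 ^ (r + 1)) ≤ exp (2 * KK j / 4 ^ r) := by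
      rw [← Real.exp_add]
      apply Real.exp_le_exp.2
      have h5 : 0 ≤ KK j / 4 ^ r := div_nonneg (KK_pos j).le (by positivity)
      have : 2 * KK j / 4 ^ (r + 1) = (1 / 2) * (KK j / 4 ^ r) := by
        rw [pow_succ]
        field_simp
        ring
      rw [this, mul_div_assoc]
      linarith
    have h5 := prod_one_sub_nonneg pr hp S
    have h6 := prod_one_sub_nonneg pr hp (upTo pr s)
    calc _ ≤ ((∏ i ∈ S, (1 - 1 / (pr i : ℝ))) * exp (KK j / 4 ^ r)) *
          ((∏ i ∈ upTo pr s, (1 - 1 / (pr i : ℝ))) * exp (2 * KK j / 4 ^ (r + 1))) :=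
          mul_le_mul h2 h3 (FP.E_nonneg _ fun x => pow_nonneg (b0 x) j) (by positivity)
      _ = ((∏ i ∈ S, (1 - 1 / (pr i : ℝ))) * (∏ i ∈ upTo pr s, (1 - 1 / (pr i : ℝ)))) *
          (exp (KK j / 4 ^ r) * exp (2 * KK j / 4 ^ (r + 1))) := by ring
      _ ≤ _ := mul_le_mul_of_nonneg_left h4 (by positivity)
  · have h1 := indep (fun n => gpol r n ^ 2 * n) β bdep
    have h2 := indep (fun n => gpol r n ^ 2) (fun x => β x * om (upTo pr s) x)
      (fun x y h => by
        have e1 : om (upTo pr s) x = om (upTo pr s) y := om_congr _ fun i hi => h i (mem_upTo.1 hi)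
        simp only [bdep x y h, e1])
    have h3 := indep (fun n => gpol r n ^ 2) β bdep
    have h4 : ∀ x, gpol r (om S x) ^ 2 * β x * (om (upTo pr t) x : ℝ)
        = gpol r (om S x) ^ 2 * om S x * β x + gpol r (om S x) ^ 2 * (β x * om (upTo pr s) x) := by
      intro x
      rw [hun, om_union hdisj]
      push_cast
      ring
    rw [FP.E_congr _ h4, FP.E_add, h1, h2, h3]
    have h5 := block_om pr hp S hS6 r
    have h6 : 0 ≤ (primeModel pr hp).E β := FP.E_nonneg _ b0
    have h7 : 0 ≤ (primeModel pr hp).E (fun x => gpol r (om S x) ^ 2) :=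
      FP.E_nonneg _ fun x => sq_nonneg _
    have h8 : 2 * KK 2 / 4 ^ (r + 1) = (1 / 2) * (KK 2 / 4 ^ r) := by
      rw [pow_succ]
      field_simp
      ring
    have h9 : 0 ≤ KK 2 / 4 ^ r := div_nonneg (KK_pos 2).le (by positivity)
    rw [h8] at bom
    rw [mul_div_assoc]
    have h10 := mul_le_mul_of_nonneg_right h5 h6
    have h11 := mul_le_mul_of_nonneg_left bom h7
    have h12 := mul_nonneg h9 (mul_nonneg h7 h6)
    nlinarith

end Vale.Agent.Sieve
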