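import Vale.Agent.Lib.Sieve.BrunHooley

/-!
Counting in progressions, and upper and lower sieve bounds for a linear form on an interval.
-/

namespace Vale.Agent.Sieve

open Finset Real

theorem count_modEq (T v : ℕ) {d : ℕ} (hd : 0 < d) :
    |(((range T).filter fun n => n ≡ v [MOD d]).card : ℝ) - T / d| ≤ 1 := by
  have h := Nat.count_modEq_card T hd v
  rw [Nat.count_eq_card_filter_range] at h
  have hd' : (0 : ℝ) < d := by exact_mod_cast hd
  have h1 : ((T / d : ℕ) : ℝ) ≤ (T : ℝ) / d := Nat.cast_div_le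
  have h2 : (T : ℝ) / d < ((T / d : ℕ) : ℝ) + 1 := by
    rw [div_lt_iff₀ hd']
    have := Nat.lt_div_mul_add (a := T) hd
    have h5 : T < (T / d + 1) * d := by nlinarith
    exact_mod_cast h5
  rw [h, abs_le]
  split_ifs
  · push_cast
    constructor <;> linarith
  · push_cast
    constructor <;> linarith

theorem exists_modEq_iff_dvd (c A : ℕ) {d : ℕ} (hd : 0 < d) (h : Nat.Coprime A d) :
    ∃ v, ∀ n, d ∣ c + A * n ↔ n ≡ v [MOD d] := by
  have : NeZero d := ⟨hd.ne'⟩
  let u := ZMod.unitOfCoprime A h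
  refine ⟨(-(↑u⁻¹ * (c : ZMod d))).val, fun n => ?_⟩
  rw [← ZMod.natCast_eq_zero_iff, ← ZMod.natCast_eq_natCast_iff, ZMod.natCast_zmod_val]
  push_cast
  have hu : (A : ZMod d) = u := (ZMod.coe_unitOfCoprime A h).symm
  rw [hu]
  constructor
  · intro h1
    have h2 : (↑u⁻¹ : ZMod d) * (c + u * n) = 0 := by rw [h1, mul_zero]
    rw [mul_add, Units.inv_mul_cancel_left] at h2
    linear_combination h2
  · intro h1
    rw [h1, mul_neg, Units.mul_inv_cancel_left, add_neg_cancel]

theorem count_dvd_lin (T c A : ℕ) {d : ℕ} (hd : 0 < d) (h : Nat.Coprime A d) :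
    |(((range T).filter fun n => d ∣ c + A * n).card : ℝ) - T / d| ≤ 1 := by
  obtain ⟨v, hv⟩ := exists_modEq_iff_dvd c A hd h
  simp only [hv]
  exact count_modEq T v hd

variable {ι : Type*} [Fintype ι] [DecidableEq ι]

omit [Fintype ι] [DecidableEq ι] in
theorem prod_dvd_iff (pr : ι → ℕ) (hp : ∀ i, (pr i).Prime) (hinj : Function.Injective pr)
    (D : Finset ι) (n : ℕ) : (∏ i ∈ D, pr i) ∣ n ↔ ∀ i ∈ D, pr i ∣ n := by
  constructor
  · intro h i hi
    exact (dvd_prod_of_mem pr hi).trans h
  · intro h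
    refine Finset.prod_dvd_of_isRelPrime ?_ h
    intro i _ j _ hij
    exact Nat.coprime_iff_isRelPrime.1 ((Nat.coprime_primes (hp i) (hp j)).2 fun e => hij (hinj e))

theorem E_atom (pr : ι → ℕ) (hp : ∀ i, (pr i).Prime) (D : Finset ι) :
    (primeModel pr hp).E (fun x => ∏ i ∈ D, if x i then (1 : ℝ) else 0)
      = 1 / ((∏ i ∈ D, pr i : ℕ) : ℝ) := by
  rw [primeModel, FP.E_pi_prod_on _ D (fun _ b => if b = true then (1 : ℝ) else 0)]
  push_cast
  rw [one_div, ← prod_inv_distrib]
  refine prod_congr rfl fun i _ => ?_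
  rw [FP.E_bern]
  simp

theorem sieve_transfer (pr : ι → ℕ) (hp : ∀ i, (pr i).Prime) (hinj : Function.Injective pr)
    (T c A : ℕ) (hA : ∀ i, ¬ pr i ∣ A) {f : (ι → Bool) → ℝ} {B : ℝ}
    (h : PN (atoms fun i (x : ι → Bool) => x i) f B) :
    |∑ n ∈ range T, f (fun i => decide (pr i ∣ c + A * n)) - T * (primeModel pr hp).E f| ≤ B := by
  have := h.transfer (primeModel pr hp) (range T) (fun n i => decide (pr i ∣ c + A * n)) T 1
    zero_le_one (by
      rintro a ⟨D, hD⟩
      have ha : a = fun x => ∏ i ∈ D, if x i then (1 : ℝ) else 0 := funext hD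
      rw [ha, E_atom]
      have hd : 0 < ∏ i ∈ D, pr i := prod_pos fun i _ => (hp i).pos
      have hc : Nat.Coprime A (∏ i ∈ D, pr i) :=
        Nat.Coprime.prod_right fun i _ => ((Nat.Prime.coprime_iff_not_dvd (hp i)).2 (hA i)).symm
      have h1 := count_dvd_lin T c A hd hc
      have h2 : ∑ n ∈ range T, (∏ i ∈ D, if decide (pr i ∣ c + A * n) = true then (1 : ℝ) else 0)
          = (((range T).filter fun n => (∏ i ∈ D, pr i) ∣ c + A * n).card : ℝ) := by
        rw [card_filter]
        push_cast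
        refine sum_congr rfl fun n _ => ?_
        rw [Finset.prod_boole]
        simp only [prod_dvd_iff pr hp hinj, decide_eq_true_eq]
      rw [h2, mul_one_div]
      exact h1)
  simpa using this

/-- Lower bound sieve for a linear form. -/
theorem sieve_lower : ∃ s : ℕ, ∀ Y T c A : ℕ, 1 ≤ Y → Nat.Coprime c A →
    (T : ℝ) / 2 * ∏ p ∈ Nat.primesLE Y, (1 - 1 / (p : ℝ)) - (Y : ℝ) ^ s ≤
      ((range T).filter fun n => ∀ p ∈ Nat.primesLE Y, ¬ p ∣ c + A * n).card := by
  obtain ⟨r, hr⟩ := pow_unbounded_of_one_lt (4 * KK 2) (by norm_num : (1 : ℝ) < 4)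
  refine ⟨4 * r + 5, fun Y T c A hY hcA => ?_⟩
  let Q := (Nat.primesLE Y).filter fun p => ¬ p ∣ A
  let pr : Q → ℕ := Subtype.val
  have hp : ∀ i : Q, (pr i).Prime := fun i => Nat.prime_of_mem_primesLE (mem_filter.1 i.2).1
  have hinj : Function.Injective pr := Subtype.val_injective
  have hle : ∀ i : Q, pr i ≤ Y := fun i => Nat.le_of_mem_primesLE (mem_filter.1 i.2).1
  obtain ⟨β, b0, -, bone, bPN, -, bom⟩ := exists_BH pr hp hinj Y r hY
  have hup : upTo pr Y = univ := by
    ext i
    simp [hle i]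
  rw [hup] at bom
  have hPN : PN (atoms fun i (x : Q → Bool) => x i) (fun x => β x * (1 - om univ x))
      ((Y : ℝ) ^ (4 * r + 5)) := by
    have h1 := (PN.atom (one_mem_atoms fun i (x : Q → Bool) => x i)).sub (PN_om univ)
    have h2 := PN.mul (mul_mem_atoms fun i (x : Q → Bool) => x i) (by positivity) bPN h1
    refine h2.mono ?_
    have h3 := card_upTo_le pr hp hinj Y
    rw [hup] at h3
    have h4 : 1 + ((univ : Finset Q).card : ℝ) ≤ Y := by
      exact_mod_cast (by omega : 1 + (univ : Finset Q).card ≤ Y)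
    rw [show 4 * r + 5 = (4 * r + 4) + 1 by ring, pow_succ]
    exact mul_le_mul_of_nonneg_left h4 (by positivity)
  have ht := sieve_transfer pr hp hinj T c A (fun i => (mem_filter.1 i.2).2) hPN
  have hE : (1 / 2) * ∏ p ∈ Nat.primesLE Y, (1 - 1 / (p : ℝ))
      ≤ (primeModel pr hp).E (fun x => β x * (1 - om univ x)) := by
    have h1 : (primeModel pr hp).E (fun x => β x * (1 - om univ x))
        = (primeModel pr hp).E β - (primeModel pr hp).E (fun x => β x * om univ x) := by
      rw [← FP.E_sub]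
      exact FP.E_congr _ fun x => by ring
    have h2 : ∏ i : Q, (1 - 1 / (pr i : ℝ)) ≤ (primeModel pr hp).E β := by
      rw [← E_zero_pow_om pr hp]
      refine FP.E_mono _ fun x => ?_
      rcases Nat.eq_zero_or_pos (om univ x) with h | h
      · rw [h, pow_zero, bone x]
        intro i _
        by_contra hx
        have := om_pos univ (mem_univ i) (x := x) (by simpa using hx)
        omega
      · rw [zero_pow h.ne']
        exact b0 x
    have h3 : ∏ p ∈ Nat.primesLE Y, (1 - 1 / (p : ℝ)) ≤ ∏ i : Q, (1 - 1 / (pr i : ℝ)) := by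
      rw [prod_coe_sort Q (fun p : ℕ => (1 - 1 / (p : ℝ)))]
      apply prod_le_prod_of_subset_of_le_one (filter_subset _ _)
      · intro p hp'
        have := inv_prime_le_one (Nat.prime_of_mem_primesLE hp')
        linarith
      · intro p _ _
        have := inv_prime_nonneg p
        linarith
    have h4 : 2 * KK 2 / 4 ^ r ≤ 1 / 2 := by
      rw [div_le_iff₀ (by positivity)]
      linarith
    have h5 : 0 ≤ (primeModel pr hp).E β := FP.E_nonneg _ b0
    have h6 := mul_le_mul_of_nonneg_right h4 h5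
    linarith
  have hsum : ∑ n ∈ range T, (fun x => β x * (1 - om univ x)) (fun i => decide (pr i ∣ c + A * n))
      ≤ (((range T).filter fun n => ∀ p ∈ Nat.primesLE Y, ¬ p ∣ c + A * n).card : ℝ) := by
    rw [card_filter]
    push_cast
    refine sum_le_sum fun n _ => ?_
    split_ifs with hn
    · have hx : ∀ i : Q, decide (pr i ∣ c + A * n) = false := fun i =>
        decide_eq_false (hn _ (mem_filter.1 i.2).1)
      have e1 := bone (fun i => decide (pr i ∣ c + A * n)) fun i _ => hx i
      have e2 := om_eq_zero univ (x := fun i => decide (pr i ∣ c + A * n)) fun i _ => hx i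
      simp only [e1, e2]
      norm_num
    · push Not at hn
      obtain ⟨p, hpY, hpd⟩ := hn
      have hpA : ¬ p ∣ A := by
        intro hA
        have hc : p ∣ c := (Nat.dvd_add_left (hA.mul_right n)).1 hpd
        have := Nat.eq_one_of_dvd_coprimes hcA hc hA
        exact (Nat.prime_of_mem_primesLE hpY).one_lt.ne' this
      have h1 := om_pos univ (x := fun i => decide (pr i ∣ c + A * n))
        (mem_univ (⟨p, mem_filter.2 ⟨hpY, hpA⟩⟩ : Q)) (decide_eq_true hpd)
      have h2 : (1 : ℝ) ≤ om univ (fun i => decide (pr i ∣ c + A * n)) := by exact_mod_cast h1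
      exact mul_nonpos_of_nonneg_of_nonpos (b0 _) (by linarith)
  have hT : (0 : ℝ) ≤ T := by positivity
  have h7 := mul_le_mul_of_nonneg_left hE hT
  have h8 := (abs_le.1 ht).1
  linarith

/-- Upper bound sieve for an interval. -/
theorem sieve_upper (y H c : ℕ) (hy : 1 ≤ y) :
    (((range H).filter fun n => ∀ p ∈ Nat.primesLE y, ¬ p ∣ c + n).card : ℝ) ≤
      H * (∏ p ∈ Nat.primesLE y, (1 - 1 / (p : ℝ))) * exp (2 * KK 1) + (y : ℝ) ^ 4 := by
  let Q := Nat.primesLE y
  let pr : Q → ℕ := Subtype.val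
  have hp : ∀ i : Q, (pr i).Prime := fun i => Nat.prime_of_mem_primesLE i.2
  have hinj : Function.Injective pr := Subtype.val_injective
  have hle : ∀ i : Q, pr i ≤ y := fun i => Nat.le_of_mem_primesLE i.2
  obtain ⟨β, b0, -, bone, bPN, bmom, -⟩ := exists_BH pr hp hinj y 0 hy
  have hup : upTo pr y = univ := by
    ext i
    simp [hle i]
  have ht := sieve_transfer pr hp hinj H c 1 (fun i => (hp i).not_dvd_one) bPN
  have hE := bmom 1 le_rfl
  rw [hup, prod_coe_sort Q (fun p : ℕ => (1 - 1 / (p : ℝ)))] at hE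
  simp only [pow_one, pow_zero, div_one] at hE
  have hsum : (((range H).filter fun n => ∀ p ∈ Nat.primesLE y, ¬ p ∣ c + n).card : ℝ)
      ≤ ∑ n ∈ range H, β (fun i => decide (pr i ∣ c + 1 * n)) := by
    rw [card_filter]
    push_cast
    refine sum_le_sum fun n _ => ?_
    split_ifs with hn
    · rw [bone]
      intro i _
      rw [one_mul]
      exact decide_eq_false (hn _ i.2)
    · exact b0 _
  have hT : (0 : ℝ) ≤ H := by positivity
  have h7 := mul_le_mul_of_nonneg_left hE hT
  have h8 := (abs_le.1 ht).2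
  have e : (fun x => β x) = β := rfl
  rw [e] at h7
  norm_num at h8
  rw [mul_assoc]
  simp only [one_mul] at hsum
  linarith

theorem exp_le_prod_primesLE (Y n : ℕ) (h : Y < 2 ^ (2 ^ n)) :
    exp (-(12 * n)) ≤ ∏ p ∈ Nat.primesLE Y, (1 - 1 / (p : ℝ)) := by
  have h1 := range_le 1 n Y h
  have h2 : (Nat.primesLE Y).filter (fun p => 1 < p) = Nat.primesLE Y :=
    filter_true_of_mem fun p hp => Nat.one_lt_of_mem_primesLE hp
  rw [h2] at h1
  refine le_trans ?_ (exp_le_prod_one_sub _ (fun p : ℕ => 1 / (p : ℝ))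
    (fun p _ => inv_prime_nonneg p) fun p hp => inv_prime_le_half (Nat.prime_of_mem_primesLE hp))
  apply Real.exp_le_exp.2
  linarith

end Vale.Agent.Sieve
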