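import Mathlib

/-!
Finite probability spaces given by weights, expectations, products and independence.
-/

namespace Vale.Agent.Sieve

open Finset

/-- A probability weight on a finite type. -/
structure FP (Ω : Type*) [Fintype Ω] where
  w : Ω → ℝ
  nonneg : ∀ x, 0 ≤ w x
  sum_one : ∑ x, w x = 1

namespace FP

variable {Ω : Type*} [Fintype Ω] (P : FP Ω)

/-- Expectation. -/
def E (f : Ω → ℝ) : ℝ := ∑ x, P.w x * f x

theorem E_add (f g : Ω → ℝ) : P.E (fun x => f x + g x) = P.E f + P.E g := by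
  simp only [E, mul_add, sum_add_distrib]

theorem E_sub (f g : Ω → ℝ) : P.E (fun x => f x - g x) = P.E f - P.E g := by
  simp only [E, mul_sub, sum_sub_distrib]

theorem E_const_mul (c : ℝ) (f : Ω → ℝ) : P.E (fun x => c * f x) = c * P.E f := by
  simp only [E, mul_sum]
  exact sum_congr rfl fun x _ => by ring

theorem E_mul_const (c : ℝ) (f : Ω → ℝ) : P.E (fun x => f x * c) = P.E f * c := by
  simp only [E, sum_mul]
  exact sum_congr rfl fun x _ => by ring

theorem E_const (c : ℝ) : P.E (fun _ => c) = c := by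
  simp only [E, ← sum_mul, P.sum_one, one_mul]

theorem E_neg (f : Ω → ℝ) : P.E (fun x => - f x) = - P.E f := by
  simp only [E, mul_neg, sum_neg_distrib]

theorem E_sum {ι : Type*} (s : Finset ι) (f : ι → Ω → ℝ) :
    P.E (fun x => ∑ i ∈ s, f i x) = ∑ i ∈ s, P.E (f i) := by
  simp only [E, mul_sum]
  exact sum_comm

theorem E_mono {f g : Ω → ℝ} (h : ∀ x, f x ≤ g x) : P.E f ≤ P.E g :=
  sum_le_sum fun x _ => mul_le_mul_of_nonneg_left (h x) (P.nonneg x)

theorem E_nonneg {f : Ω → ℝ} (h : ∀ x, 0 ≤ f x) : 0 ≤ P.E f :=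
  sum_nonneg fun x _ => mul_nonneg (P.nonneg x) (h x)

theorem E_congr {f g : Ω → ℝ} (h : ∀ x, f x = g x) : P.E f = P.E g := by
  have : f = g := funext h
  rw [this]

theorem abs_E_le {f : Ω → ℝ} {B : ℝ} (h : ∀ x, |f x| ≤ B) : |P.E f| ≤ B := by
  rw [abs_le]
  constructor
  · have := P.E_mono (f := fun _ => -B) (g := f) (fun x => (abs_le.1 (h x)).1)
    rwa [E_const] at this
  · have := P.E_mono (f := f) (g := fun _ => B) (fun x => (abs_le.1 (h x)).2)
    rwa [E_const] at this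

/-- Expectation as a linear functional. -/
def Elin : (Ω → ℝ) →ₗ[ℝ] ℝ where
  toFun f := P.E f
  map_add' f g := P.E_add f g
  map_smul' c f := P.E_const_mul c f

@[simp] theorem Elin_apply (f : Ω → ℝ) : P.Elin f = P.E f := rfl

theorem E_sq_sub (f : Ω → ℝ) : P.E (fun x => (f x - P.E f) ^ 2) ≤ P.E (fun x => f x ^ 2) := by
  have h : P.E (fun x => (f x - P.E f) ^ 2)
      = P.E (fun x => f x ^ 2) - (P.E f) ^ 2 := by
    have : ∀ x, (f x - P.E f) ^ 2 = (f x ^ 2 - (2 * P.E f) * f x) + (P.E f) ^ 2 := fun x => by ring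
    rw [P.E_congr this, E_add, E_sub, E_const_mul, E_const]
    ring
  rw [h]
  nlinarith [sq_nonneg (P.E f)]

section pi

variable {ι : Type*} [Fintype ι] [DecidableEq ι] {A : ι → Type*} [∀ i, Fintype (A i)]

/-- Product of finite probability spaces. -/
def pi (Q : ∀ i, FP (A i)) : FP (∀ i, A i) where
  w x := ∏ i, (Q i).w (x i)
  nonneg x := prod_nonneg fun i _ => (Q i).nonneg _
  sum_one := by
    have := Finset.prod_univ_sum (fun i => (univ : Finset (A i))) (fun i a => (Q i).w a)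
    rw [Fintype.piFinset_univ] at this
    rw [← this]
    simp [FP.sum_one]

theorem pi_w (Q : ∀ i, FP (A i)) (x : ∀ i, A i) : (pi Q).w x = ∏ i, (Q i).w (x i) := rfl

theorem E_pi_prod (Q : ∀ i, FP (A i)) (f : ∀ i, A i → ℝ) :
    (pi Q).E (fun x => ∏ i, f i (x i)) = ∏ i, (Q i).E (f i) := by
  have := Finset.prod_univ_sum (fun i => (univ : Finset (A i))) (fun i a => (Q i).w a * f i a)
  rw [Fintype.piFinset_univ] at this
  simp only [E, pi_w]
  rw [this]
  exact sum_congr rfl fun x _ => by rw [prod_mul_distrib]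

theorem E_pi_prod_on (Q : ∀ i, FP (A i)) (s : Finset ι) (f : ∀ i, A i → ℝ) :
    (pi Q).E (fun x => ∏ i ∈ s, f i (x i)) = ∏ i ∈ s, (Q i).E (f i) := by
  have h := E_pi_prod Q (fun i a => if i ∈ s then f i a else 1)
  have h1 : ∀ x : ∀ i, A i, ∏ i, (if i ∈ s then f i (x i) else 1) = ∏ i ∈ s, f i (x i) := by
    intro x
    rw [prod_ite_mem, univ_inter]
  have h2 : ∏ i, (Q i).E (fun a => if i ∈ s then f i a else 1) = ∏ i ∈ s, (Q i).E (f i) := by
    have : ∀ i, (Q i).E (fun a => if i ∈ s then f i a else 1)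
        = if i ∈ s then (Q i).E (f i) else 1 := by
      intro i
      by_cases hi : i ∈ s
      · simp [hi]
      · simp [hi, E_const]
    simp only [this]
    rw [prod_ite_mem, univ_inter]
  rw [← h2, ← h]
  exact E_congr _ fun x => (h1 x).symm

theorem E_pi_coord (Q : ∀ i, FP (A i)) (i : ι) (f : A i → ℝ) :
    (pi Q).E (fun x => f (x i)) = (Q i).E f := by
  have h := E_pi_prod_on Q {i} (fun j a => if h : j = i then f (h ▸ a) else 1)
  simpa using h

theorem E_pi_indep (Q : ∀ i, FP (A i)) (s : Finset ι) (f g : (∀ i, A i) → ℝ)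
    (hf : ∀ x y : ∀ i, A i, (∀ i ∈ s, x i = y i) → f x = f y)
    (hg : ∀ x y : ∀ i, A i, (∀ i, i ∉ s → x i = y i) → g x = g y) :
    (pi Q).E (fun x => f x * g x) = (pi Q).E f * (pi Q).E g := by
  let sw : (∀ i, A i) × (∀ i, A i) → (∀ i, A i) × (∀ i, A i) :=
    fun z => (s.piecewise z.1 z.2, s.piecewise z.2 z.1)
  have hinv : Function.Involutive sw := by
    rintro ⟨x, y⟩
    ext i
    · by_cases hi : i ∈ s <;> simp [sw, hi]
    · by_cases hi : i ∈ s <;> simp [sw, hi]
  have hw : ∀ z, (pi Q).w (sw z).1 * (pi Q).w (sw z).2 = (pi Q).w z.1 * (pi Q).w z.2 := by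
    rintro ⟨x, y⟩
    simp only [pi_w, ← prod_mul_distrib]
    refine prod_congr rfl fun i _ => ?_
    by_cases hi : i ∈ s <;> simp [sw, hi, mul_comm]
  have h1 : (pi Q).E f * (pi Q).E g
      = ∑ z : (∀ i, A i) × (∀ i, A i), (pi Q).w z.1 * (pi Q).w z.2 * (f z.1 * g z.2) := by
    rw [E, E, sum_mul_sum, ← Fintype.sum_prod_type']
    exact sum_congr rfl fun z _ => by ring
  have h2 : (pi Q).E (fun x => f x * g x)
      = ∑ z : (∀ i, A i) × (∀ i, A i), (pi Q).w z.1 * (pi Q).w z.2 * (f z.1 * g z.1) := by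
    rw [Fintype.sum_prod_type, E]
    refine sum_congr rfl fun x _ => ?_
    have : ∑ y, (pi Q).w x * (pi Q).w y * (f x * g x)
        = (pi Q).w x * (f x * g x) * ∑ y, (pi Q).w y := by
      rw [mul_sum]
      exact sum_congr rfl fun y _ => by ring
    rw [this, (pi Q).sum_one, mul_one]
  rw [h1, h2, ← Equiv.sum_comp hinv.toPerm]
  refine sum_congr rfl fun z _ => ?_
  have e1 : f (sw z).1 = f z.1 := hf _ _ fun i hi => by simp [sw, hi]
  have e2 : g (sw z).1 = g z.2 := hg _ _ fun i hi => by simp [sw, hi]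
  change (pi Q).w (sw z).1 * (pi Q).w (sw z).2 * (f (sw z).1 * g (sw z).1) = _
  rw [hw, e1, e2]

end pi

/-- Bernoulli weight. -/
def bern (q : ℝ) (h0 : 0 ≤ q) (h1 : q ≤ 1) : FP Bool where
  w b := if b then q else 1 - q
  nonneg b := by cases b <;> simp [h0, h1]
  sum_one := by simp

theorem E_bern (q : ℝ) (h0 : 0 ≤ q) (h1 : q ≤ 1) (f : Bool → ℝ) :
    (bern q h0 h1).E f = q * f true + (1 - q) * f false := by
  simp [E, bern]

end FP

/-- `PN A f B`: every linear functional bounded by `c` on the atoms `A` is bounded by `B * c` at `f`. -/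
def PN {Ω : Type*} (A : Set (Ω → ℝ)) (f : Ω → ℝ) (B : ℝ) : Prop :=
  ∀ (φ : (Ω → ℝ) →ₗ[ℝ] ℝ) (c : ℝ), 0 ≤ c → (∀ a ∈ A, |φ a| ≤ c) → |φ f| ≤ B * c

namespace PN

variable {Ω : Type*} {A : Set (Ω → ℝ)}

theorem atom {a : Ω → ℝ} (h : a ∈ A) : PN A a 1 := fun φ c _ hφ => by simpa using hφ a h

theorem mono {f : Ω → ℝ} {B B' : ℝ} (h : PN A f B) (hB : B ≤ B') : PN A f B' :=
  fun φ c hc hφ => (h φ c hc hφ).trans (mul_le_mul_of_nonneg_right hB hc)

theorem congr {f g : Ω → ℝ} {B : ℝ} (h : PN A f B) (hfg : ∀ x, g x = f x) : PN A g B := by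
  have : g = f := funext hfg
  rwa [this]

theorem zero : PN A (fun _ => 0) 0 := fun φ c _ _ => by
  have : (fun _ : Ω => (0 : ℝ)) = 0 := rfl
  simp [this]

theorem add {f g : Ω → ℝ} {B B' : ℝ} (h : PN A f B) (h' : PN A g B') :
    PN A (fun x => f x + g x) (B + B') := fun φ c hc hφ => by
  have : (fun x => f x + g x) = f + g := rfl
  rw [this, map_add, add_mul]
  exact (abs_add_le _ _).trans (add_le_add (h φ c hc hφ) (h' φ c hc hφ))

theorem const_mul {f : Ω → ℝ} {B : ℝ} (h : PN A f B) (t : ℝ) :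
    PN A (fun x => t * f x) (|t| * B) := fun φ c hc hφ => by
  have : (fun x => t * f x) = t • f := rfl
  rw [this, map_smul, smul_eq_mul, abs_mul, mul_assoc]
  exact mul_le_mul_of_nonneg_left (h φ c hc hφ) (abs_nonneg t)

theorem neg {f : Ω → ℝ} {B : ℝ} (h : PN A f B) : PN A (fun x => - f x) B := by
  have := h.const_mul (-1)
  simpa using this

theorem sub {f g : Ω → ℝ} {B B' : ℝ} (h : PN A f B) (h' : PN A g B') :
    PN A (fun x => f x - g x) (B + B') :=
  (h.add h'.neg).congr fun x => by ring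

theorem sum {ι : Type*} (s : Finset ι) {f : ι → Ω → ℝ} {B : ι → ℝ}
    (h : ∀ i ∈ s, PN A (f i) (B i)) : PN A (fun x => ∑ i ∈ s, f i x) (∑ i ∈ s, B i) := by
  classical
  induction s using Finset.induction_on with
  | empty => simpa using zero
  | insert a s ha ih =>
    simp only [sum_insert ha]
    exact (h a (mem_insert_self _ _)).add (ih fun i hi => h i (mem_insert_of_mem hi))

theorem const (h1 : (fun _ => (1 : ℝ)) ∈ A) (t : ℝ) : PN A (fun _ => t) |t| := by
  have := (atom h1).const_mul t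
  simpa using this

theorem mul (hA : ∀ a ∈ A, ∀ a' ∈ A, (fun x => a x * a' x) ∈ A) {f g : Ω → ℝ} {B B' : ℝ}
    (hB' : 0 ≤ B') (h : PN A f B) (h' : PN A g B') : PN A (fun x => f x * g x) (B * B') := by
  intro φ c hc hφ
  have key : ∀ a ∈ A, |φ (fun x => a x * g x)| ≤ B' * c := by
    intro a ha
    have := h' (φ.comp (LinearMap.mulLeft ℝ a)) c hc (fun a' ha' => hφ _ (hA a ha a' ha'))
    exact this
  have := h (φ.comp (LinearMap.mulRight ℝ g)) (B' * c) (mul_nonneg hB' hc) key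
  rw [mul_assoc]
  exact this

theorem prod (hA : ∀ a ∈ A, ∀ a' ∈ A, (fun x => a x * a' x) ∈ A) (h1 : (fun _ => (1 : ℝ)) ∈ A)
    {ι : Type*} (s : Finset ι) {f : ι → Ω → ℝ} {B : ι → ℝ} (hB : ∀ i ∈ s, 0 ≤ B i)
    (h : ∀ i ∈ s, PN A (f i) (B i)) : PN A (fun x => ∏ i ∈ s, f i x) (∏ i ∈ s, B i) := by
  classical
  induction s using Finset.induction_on with
  | empty => simpa using atom h1
  | insert a s ha ih =>
    simp only [prod_insert ha]
    exact mul hA (prod_nonneg fun i hi => hB i (mem_insert_of_mem hi)) (h a (mem_insert_self _ _))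
      (ih (fun i hi => hB i (mem_insert_of_mem hi)) fun i hi => h i (mem_insert_of_mem hi))

theorem comp {Ω' : Type*} {A' : Set (Ω' → ℝ)} (g : Ω' → Ω) {f : Ω → ℝ} {B : ℝ}
    (hg : ∀ a ∈ A, PN A' (fun x => a (g x)) 1) (h : PN A f B) : PN A' (fun x => f (g x)) B := by
  intro φ c hc hφ
  have := h (φ.comp (LinearMap.funLeft ℝ ℝ g)) c hc (fun a ha => by
    have := hg a ha φ c hc hφ
    rw [one_mul] at this
    exact this)
  exact this

theorem abs_le {f : Ω → ℝ} {B : ℝ} (hA : ∀ a ∈ A, ∀ x, |a x| ≤ 1) (h : PN A f B) (x : Ω) :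
    |f x| ≤ B := by
  have := h (LinearMap.proj x) 1 zero_le_one (fun a ha => hA a ha x)
  simpa using this

/-- Transfer from a model expectation to a sum over a finite family of points. -/
theorem transfer [Fintype Ω] (P : FP Ω) {κ : Type*} (s : Finset κ) (pat : κ → Ω) (X c : ℝ)
    (hc : 0 ≤ c) (hA : ∀ a ∈ A, |∑ m ∈ s, a (pat m) - X * P.E a| ≤ c) {f : Ω → ℝ} {B : ℝ}
    (h : PN A f B) : |∑ m ∈ s, f (pat m) - X * P.E f| ≤ B * c := by
  have := h ((∑ m ∈ s, LinearMap.proj (pat m)) - X • P.Elin) c hc (fun a ha => by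
    simpa using hA a ha)
  simpa using this

end PN

/-- The atoms attached to a family of Boolean coordinates: indicators of all coordinates of a
finite set being true. -/
def atoms {Ω κ : Type*} (c : κ → Ω → Bool) : Set (Ω → ℝ) :=
  {a | ∃ D : Finset κ, ∀ x, a x = ∏ k ∈ D, if c k x then (1 : ℝ) else 0}

theorem one_mem_atoms {Ω κ : Type*} (c : κ → Ω → Bool) : (fun _ => (1 : ℝ)) ∈ atoms c :=
  ⟨∅, by simp⟩

theorem coord_mem_atoms {Ω κ : Type*} (c : κ → Ω → Bool) (k : κ) :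
    (fun x => if c k x then (1 : ℝ) else 0) ∈ atoms c := ⟨{k}, by simp⟩

theorem prod_ind_eq {Ω κ : Type*} (c : κ → Ω → Bool) (D : Finset κ) (x : Ω) :
    (∏ k ∈ D, if c k x then (1 : ℝ) else 0) = if ∀ k ∈ D, c k x = true then 1 else 0 := by
  classical
  exact Finset.prod_boole

theorem mul_mem_atoms {Ω κ : Type*} (c : κ → Ω → Bool) :
    ∀ a ∈ atoms c, ∀ a' ∈ atoms c, (fun x => a x * a' x) ∈ atoms c := by
  classical
  rintro a ⟨D, hD⟩ a' ⟨D', hD'⟩
  refine ⟨D ∪ D', fun x => ?_⟩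
  show a x * a' x = _
  rw [hD, hD', prod_ind_eq, prod_ind_eq, prod_ind_eq]
  by_cases h1 : ∀ k ∈ D, c k x = true
  · by_cases h2 : ∀ k ∈ D', c k x = true
    · rw [if_pos h1, if_pos h2, if_pos, one_mul]
      intro k hk
      rcases mem_union.1 hk with h | h
      exacts [h1 k h, h2 k h]
    · rw [if_neg h2, mul_zero, if_neg]
      exact fun h => h2 fun k hk => h k (mem_union_right _ hk)
  · rw [if_neg h1, zero_mul, if_neg]
    exact fun h => h1 fun k hk => h k (mem_union_left _ hk)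

theorem abs_atoms_le {Ω κ : Type*} (c : κ → Ω → Bool) : ∀ a ∈ atoms c, ∀ x, |a x| ≤ 1 := by
  rintro a ⟨D, hD⟩ x
  rw [hD, prod_ind_eq]
  split_ifs <;> simp

end Vale.Agent.Sieve
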